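import Mathlib

namespace Vale.Agent.H26.P226

open MeasureTheory ProbabilityTheory

/-- Gaussian exponential moments (proof by helper25). -/
theorem expBound {ι : Type} [Fintype ι] (c : ι → ℝ) :
    Integrable (fun G : ι → ℝ => Real.exp (∑ e, c e * G e))
      (Measure.pi (fun _ : ι => gaussianReal 0 1)) ∧
    ∫ G, Real.exp (∑ e, c e * G e) ∂(Measure.pi (fun _ : ι => gaussianReal 0 1))
      = Real.exp ((∑ e, c e ^ 2) / 2) := by
  have h1 : (fun G : ι → ℝ => Real.exp (∑ e, c e * G e)) =
      fun G : ι → ℝ => ∏ e, Real.exp (c e * G e) := by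
    funext G
    rw [Real.exp_sum]
  have h2 : ∀ t : ℝ, ∫ x, Real.exp (t * x) ∂(gaussianReal 0 1) = Real.exp (t ^ 2 / 2) := by
    intro t
    have := congrFun (mgf_fun_id_gaussianReal (μ := 0) (v := 1)) t
    unfold mgf at this
    rw [this]
    congr 1
    simp
  constructor
  · rw [h1]
    exact Integrable.fintype_prod (f := fun e x => Real.exp (c e * x))
      (fun e => integrable_exp_mul_gaussianReal (c e))
  · rw [h1, integral_fintype_prod_eq_prod (f := fun e x => Real.exp (c e * x))]
    simp_rw [h2]
    rw [← Real.exp_sum, Finset.sum_div]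

/-- standard Gaussian measure on `ℝ^d` -/
noncomputable abbrev γ (d : ℕ) : Measure (Fin d → ℝ) := Measure.pi (fun _ => gaussianReal 0 1)

theorem int_coord (d : ℕ) (j : Fin d) : Integrable (fun x : Fin d → ℝ => x j) (γ d) := by
  classical
  have h1 := (expBound (Pi.single j (1:ℝ) : Fin d → ℝ)).1
  have h2 := (expBound (Pi.single j (-1:ℝ) : Fin d → ℝ)).1
  have e : ∀ (t : ℝ) (x : Fin d → ℝ), ∑ i, (Pi.single j t : Fin d → ℝ) i * x i = t * x j := by
    intro t x
    rw [Finset.sum_eq_single j]
    · simp
    · intro b _ hb; simp [Pi.single_eq_of_ne hb]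
    · intro h; exact absurd (Finset.mem_univ _) h
  simp only [e] at h1 h2
  refine Integrable.mono' (h1.add h2) (measurable_pi_apply j).aestronglyMeasurable ?_
  refine Filter.Eventually.of_forall (fun x => ?_)
  simp only [Pi.add_apply, Real.norm_eq_abs, one_mul, neg_mul]
  have a1 := Real.add_one_le_exp (x j)
  have a2 := Real.add_one_le_exp (-(x j))
  have a3 := Real.exp_pos (x j)
  have a4 := Real.exp_pos (-(x j))
  rcases abs_cases (x j) with ⟨h, _⟩ | ⟨h, _⟩ <;> rw [h] <;> linarith

/-- level-1 inequality -/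
theorem level1 (d : ℕ) (A : Set (Fin d → ℝ)) (hA : MeasurableSet A) :
    ∑ j, (∫ x in A, x j ∂(γ d))^2 ≤ 2 * ((γ d).real A)^2 * Real.log (1 / (γ d).real A) := by
  set a := (γ d).real A with ha
  set z : Fin d → ℝ := fun j => ∫ x in A, x j ∂(γ d) with hz
  have ha0 : 0 ≤ a := measureReal_nonneg
  rcases eq_or_lt_of_le ha0 with h0 | h0
  · have hA0 : (γ d) A = 0 := by
      rw [ha] at h0
      exact (measureReal_eq_zero_iff).mp h0.symm
    have hz0 : ∀ j, z j = 0 := by
      intro j
      rw [hz]; simp only
      rw [Measure.restrict_eq_zero.mpr hA0]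
      simp
    simp only [hz] at hz0
    simp [hz0, ← h0]
  set s := ∑ j, (z j)^2 with hs
  have hexp := expBound (fun j => z j / a)
  have hgint : Integrable (fun x : Fin d → ℝ => ∑ j, z j / a * x j) (γ d) :=
    integrable_finsetSum _ (fun j _ => (int_coord d j).const_mul _)
  have hgA : ∫ x in A, (∑ j, z j / a * x j) ∂(γ d) = s / a := by
    rw [integral_finsetSum _ (fun j _ => ((int_coord d j).const_mul _).integrableOn)]
    rw [hs, Finset.sum_div]
    apply Finset.sum_congr rfl
    intro j _
    rw [integral_const_mul]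
    rw [hz]; simp only; ring
  set m := s / a^2 with hm
  have hsq : (∑ j, (z j / a)^2) = m := by
    rw [hm, hs, Finset.sum_div]
    apply Finset.sum_congr rfl
    intro j _
    rw [div_pow]
  -- lower bound
  have h1 : a * Real.exp m ≤ ∫ x in A, Real.exp (∑ j, z j / a * x j) ∂(γ d) := by
    have h2 : ∀ x : Fin d → ℝ, Real.exp m * (1 + ((∑ j, z j / a * x j) - m))
        ≤ Real.exp (∑ j, z j / a * x j) := by
      intro x
      have e : Real.exp (∑ j, z j / a * x j) = Real.exp m * Real.exp ((∑ j, z j / a * x j) - m) := by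
        rw [← Real.exp_add]; congr 1; ring
      rw [e]
      apply mul_le_mul_of_nonneg_left _ (Real.exp_pos _).le
      have := Real.add_one_le_exp ((∑ j, z j / a * x j) - m)
      linarith
    have hc1 : IntegrableOn (fun _ : Fin d → ℝ => (1 - m)) A (γ d) := integrableOn_const (by simp) (by simp)
    have h3 : ∫ x in A, Real.exp m * (1 + ((∑ j, z j / a * x j) - m)) ∂(γ d) = a * Real.exp m := by
      rw [integral_const_mul]
      have e2 : (fun x : Fin d → ℝ => 1 + ((∑ j, z j / a * x j) - m))
          = fun x => (1 - m) + (∑ j, z j / a * x j) := by funext x; ring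
      rw [e2, integral_add hc1 hgint.integrableOn, hgA, setIntegral_const, ← ha]
      rw [hm, smul_eq_mul]
      field_simp
      ring
    rw [← h3]
    apply setIntegral_mono _ hexp.1.integrableOn h2
    apply Integrable.const_mul
    have e2 : (fun x : Fin d → ℝ => 1 + ((∑ j, z j / a * x j) - m))
          = fun x => (1 - m) + (∑ j, z j / a * x j) := by funext x; ring
    rw [e2]
    exact hc1.add hgint.integrableOn
  have h4 : ∫ x in A, Real.exp (∑ j, z j / a * x j) ∂(γ d) ≤ Real.exp (m/2) := by
    have := hexp.2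
    rw [hsq] at this
    rw [← this]
    exact setIntegral_le_integral hexp.1 (Filter.Eventually.of_forall (fun x => (Real.exp_pos _).le))
  have h5 : a * Real.exp m ≤ Real.exp (m/2) := h1.trans h4
  have h6 : Real.log a + m ≤ m / 2 := by
    have := Real.log_le_log (mul_pos h0 (Real.exp_pos _)) h5
    rw [Real.log_mul h0.ne' (Real.exp_pos _).ne', Real.log_exp, Real.log_exp] at this
    exact this
  have h7 : Real.log (1/a) = - Real.log a := by rw [one_div, Real.log_inv]
  rw [h7]
  have h8 : s = m * a^2 := by rw [hm]; field_simp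
  rw [h8]
  have h9 : m ≤ -2 * Real.log a := by linarith
  have := mul_le_mul_of_nonneg_right h9 (sq_nonneg a)
  linarith

end Vale.Agent.H26.P226
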