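import Vale.Agent.H26.P226.Level

namespace Vale.Agent.H26.P226

open MeasureTheory ProbabilityTheory

theorem xlog_mono (x x0 : ℝ) (hx : 0 ≤ x) (h : x ≤ x0) (h1 : 1 ≤ Real.log (1/x0)) :
    x * Real.log (1/x) ≤ x0 * Real.log (1/x0) := by
  rcases eq_or_lt_of_le hx with h0 | h0
  · rw [← h0]
    simp only [zero_mul]
    exact mul_nonneg (by linarith) (by linarith)
  have hx0 : 0 < x0 := by linarith
  have e : Real.log (1/x) = Real.log (1/x0) + Real.log (x0/x) := by
    rw [← Real.log_mul (by positivity) (by positivity)]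
    congr 1
    field_simp
  have h2 : Real.log (x0/x) ≤ x0/x - 1 := Real.log_le_sub_one_of_pos (by positivity)
  have h3 : x * Real.log (x0/x) ≤ x0 - x := by
    have := mul_le_mul_of_nonneg_left h2 hx
    have e2 : x * (x0/x - 1) = x0 - x := by field_simp
    linarith
  rw [e, mul_add]
  nlinarith

theorem xlog_le (x : ℝ) (hx : 0 ≤ x) : x * Real.log (1/x) ≤ 0.36788 := by
  rcases eq_or_lt_of_le hx with h0 | h0
  · rw [← h0]; norm_num
  have h1 : Real.log (1/(x * Real.exp 1)) ≤ 1/(x * Real.exp 1) - 1 :=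
    Real.log_le_sub_one_of_pos (by positivity)
  have e : Real.log (1/x) = Real.log (1/(x * Real.exp 1)) + 1 := by
    rw [one_div, one_div, Real.log_inv, Real.log_inv, Real.log_mul h0.ne' (Real.exp_pos _).ne',
      Real.log_exp]
    ring
  have h2 : Real.log (1/x) ≤ 1/(x * Real.exp 1) := by linarith
  have h3 := mul_le_mul_of_nonneg_left h2 hx
  have e2 : x * (1/(x * Real.exp 1)) = 1 / Real.exp 1 := by field_simp
  rw [e2] at h3
  refine h3.trans ?_
  rw [div_le_iff₀ (Real.exp_pos _)]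
  have := Real.exp_one_gt_d9
  linarith

theorem pi_bound : (0.358:ℝ) ≤ 9 / (8 * Real.pi) := by
  rw [le_div_iff₀ (by positivity)]
  have := Real.pi_lt_d4
  linarith

theorem log4 : Real.log 4 = 2 * Real.log 2 := by
  have : (4:ℝ) = 2^2 := by norm_num
  rw [this, Real.log_pow]; norm_num

theorem log16 : Real.log 16 = 4 * Real.log 2 := by
  have : (16:ℝ) = 2^4 := by norm_num
  rw [this, Real.log_pow]; norm_num

section
variable {d k : ℕ} (A : Fin k → Set (Fin d → ℝ)) (hm : ∀ i, MeasurableSet (A i))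
  (hd : Pairwise (Function.onFun Disjoint A)) (hU : ⋃ i, A i = Set.univ)

include hm hd hU

theorem sum_one : ∑ i, (γ d).real (A i) = 1 := by
  rw [← measureReal_iUnion_fintype hd hm, hU]
  simp

theorem small_cells (h : ∀ i, (γ d).real (A i) ≤ 1/16) :
    ∑ i, ∑ j, (∫ x in A i, x j ∂(γ d))^2 ≤ 9 / (8 * Real.pi) := by
  have h1 : ∀ i, ∑ j, (∫ x in A i, x j ∂(γ d))^2 ≤ 0.358 * (γ d).real (A i) := by
    intro i
    refine (level1 d (A i) (hm i)).trans ?_
    have ha : 0 ≤ (γ d).real (A i) := measureReal_nonneg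
    have e : Real.log (1/(1/16:ℝ)) = 4 * Real.log 2 := by norm_num; exact log16
    have h2 := xlog_mono _ _ ha (h i) (by rw [e]; have := Real.log_two_gt_d9; linarith)
    rw [e] at h2
    have h3 := Real.log_two_lt_d9
    have h4 : (γ d).real (A i) * Real.log (1/(γ d).real (A i)) ≤ 0.179 := by linarith
    have := mul_le_mul_of_nonneg_right h4 ha
    nlinarith
  calc ∑ i, ∑ j, (∫ x in A i, x j ∂(γ d))^2 ≤ ∑ i, 0.358 * (γ d).real (A i) :=
        Finset.sum_le_sum (fun i _ => h1 i)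
    _ = 0.358 := by rw [← Finset.mul_sum, sum_one A hm hd hU]; ring
    _ ≤ _ := pi_bound

theorem large_cell (h : ∃ i, 3/4 ≤ (γ d).real (A i)) :
    ∑ i, ∑ j, (∫ x in A i, x j ∂(γ d))^2 ≤ 9 / (8 * Real.pi) := by
  classical
  obtain ⟨i0, hi0⟩ := h
  have huniv : ∀ j, ∫ x, x j ∂(γ d) = 0 := by
    intro j
    have h1 := level1 d Set.univ MeasurableSet.univ
    simp only [Measure.restrict_univ] at h1
    have e : (γ d).real Set.univ = 1 := by simp
    rw [e] at h1
    simp only [div_one, Real.log_one, mul_zero] at h1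
    have h2 : (∫ x, x j ∂(γ d))^2 ≤ 0 :=
      (Finset.single_le_sum (f := fun j => (∫ x, x j ∂(γ d))^2) (fun i _ => sq_nonneg _)
        (Finset.mem_univ j)).trans h1
    nlinarith [sq_nonneg (∫ x, x j ∂(γ d))]
  set b := (γ d).real (A i0)ᶜ with hb
  have hb1 : b = 1 - (γ d).real (A i0) := by
    rw [hb, probReal_compl_eq_one_sub (hm i0)]
  have hb0 : 0 ≤ b := measureReal_nonneg
  have hb4 : b ≤ 1/4 := by linarith
  have hcompl : ∑ j, (∫ x in A i0, x j ∂(γ d))^2 = ∑ j, (∫ x in (A i0)ᶜ, x j ∂(γ d))^2 := by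
    apply Finset.sum_congr rfl
    intro j _
    have := integral_add_compl (hm i0) (int_coord d j)
    rw [huniv j] at this
    have e : ∫ x in A i0, x j ∂(γ d) = - ∫ x in (A i0)ᶜ, x j ∂(γ d) := by linarith
    rw [e]; ring
  have h1 : ∑ j, (∫ x in A i0, x j ∂(γ d))^2 ≤ 0.1733 := by
    rw [hcompl]
    refine (level1 d _ (hm i0).compl).trans ?_
    rw [← hb]
    have e : Real.log (1/(1/4:ℝ)) = 2 * Real.log 2 := by norm_num; exact log4
    have h2 := xlog_mono _ _ hb0 hb4 (by rw [e]; have := Real.log_two_gt_d9; linarith)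
    rw [e] at h2
    have h3 := Real.log_two_lt_d9
    have h4 : b * Real.log (1/b) ≤ 0.34658 := by linarith
    have h5 : b * (b * Real.log (1/b)) ≤ b * 0.34658 := mul_le_mul_of_nonneg_left h4 hb0
    nlinarith
  have h2 : ∀ i, ∑ j, (∫ x in A i, x j ∂(γ d))^2 ≤ 0.73576 * (γ d).real (A i) := by
    intro i
    refine (level1 d (A i) (hm i)).trans ?_
    have ha : 0 ≤ (γ d).real (A i) := measureReal_nonneg
    have h4 := xlog_le _ ha
    have := mul_le_mul_of_nonneg_right h4 ha
    nlinarith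
  have hsum := sum_one A hm hd hU
  rw [← Finset.add_sum_erase _ _ (Finset.mem_univ i0)] at hsum
  rw [← Finset.add_sum_erase _ _ (Finset.mem_univ i0)]
  have h3 : ∑ i ∈ Finset.univ.erase i0, ∑ j, (∫ x in A i, x j ∂(γ d))^2
      ≤ ∑ i ∈ Finset.univ.erase i0, 0.73576 * (γ d).real (A i) :=
    Finset.sum_le_sum (fun i _ => h2 i)
  rw [← Finset.mul_sum] at h3
  have h4 : ∑ i ∈ Finset.univ.erase i0, (γ d).real (A i) ≤ 1/4 := by linarith
  refine le_trans ?_ pi_bound
  have h5 : (0.73576:ℝ) * ∑ i ∈ Finset.univ.erase i0, (γ d).real (A i) ≤ 0.73576 * (1/4) :=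
    mul_le_mul_of_nonneg_left h4 (by norm_num)
  linarith

end

end Vale.Agent.H26.P226
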